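import Vale.Agent.Lib.P226.KappaSharp
import Vale.Agent.Lib.P226.SmallCells

open MeasureTheory ProbabilityTheory

namespace Vale.Agent.Results.P226.AllBounds

/-- All our bounds for the Gaussian propeller problem in one statement. For every dimension `d`,
every number of cells `k` and every family `A 0, ..., A (k-1)` of pairwise disjoint measurable
subsets of `ℝ^d` (in particular every measurable partition), with `z(A) = ∫_A x dγ`:
(1) every cell satisfies `|z(A i)|^2 ≤ (41/100) γ(A i)`;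
(2) every cell of measure at most `1/7` or at least `11/25` satisfies the sharp per-cell bound
    `|z(A i)|^2 ≤ (9 / (8 π)) γ(A i)`;
(3) `∑ i, |z(A i)|^2 ≤ 41/100`;
(4) if no cell has measure strictly between `1/7` and `11/25`, then
    `∑ i, |z(A i)|^2 ≤ 9 / (8 π)`, the conjectured sharp bound. -/
theorem result (d k : ℕ) (A : Fin k → Set (EuclideanSpace ℝ (Fin d)))
    (hA : ∀ i, MeasurableSet (A i))
    (hdisj : Pairwise (Function.onFun Disjoint A)) :
    (∀ i, ‖∫ x in A i, x ∂(stdGaussian (EuclideanSpace ℝ (Fin d)))‖ ^ 2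
        ≤ 41 / 100 * (stdGaussian (EuclideanSpace ℝ (Fin d))).real (A i)) ∧
    (∀ i, ((stdGaussian (EuclideanSpace ℝ (Fin d))).real (A i) ≤ 1 / 7 ∨
        11 / 25 ≤ (stdGaussian (EuclideanSpace ℝ (Fin d))).real (A i)) →
      ‖∫ x in A i, x ∂(stdGaussian (EuclideanSpace ℝ (Fin d)))‖ ^ 2
        ≤ 9 / (8 * Real.pi) * (stdGaussian (EuclideanSpace ℝ (Fin d))).real (A i)) ∧
    ∑ i, ‖∫ x in A i, x ∂(stdGaussian (EuclideanSpace ℝ (Fin d)))‖ ^ 2 ≤ 41 / 100 ∧
    ((∀ i, (stdGaussian (EuclideanSpace ℝ (Fin d))).real (A i) ≤ 1 / 7 ∨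
        11 / 25 ≤ (stdGaussian (EuclideanSpace ℝ (Fin d))).real (A i)) →
      ∑ i, ‖∫ x in A i, x ∂(stdGaussian (EuclideanSpace ℝ (Fin d)))‖ ^ 2
        ≤ 9 / (8 * Real.pi)) := by
  refine ⟨?_, ?_, ?_, ?_⟩
  · intro i
    have h := Vale.Agent.Lib.P226.norm_sq_moment_le (E := EuclideanSpace ℝ (Fin d))
      Vale.Agent.Lib.P226.kappaBound_sharp (by norm_num) (hA i)
    linarith
  · intro i hi
    exact Vale.Agent.Lib.P226.norm_sq_moment_le_sharp (hA i) hi
  · have h := Vale.Agent.Lib.P226.sum_norm_sq_moment_le (E := EuclideanSpace ℝ (Fin d))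
      Vale.Agent.Lib.P226.kappaBound_sharp (by norm_num) A hA hdisj
    linarith
  · intro hsize
    exact Vale.Agent.Lib.P226.sum_norm_sq_moment_le_sharp A hA hdisj hsize

end Vale.Agent.Results.P226.AllBounds
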