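import Vale.Agent.Lib.P226.SmallCells

open MeasureTheory ProbabilityTheory

namespace Vale.Agent.Results.P226.SharpSmallCells

/-- The sharp propeller bound `9 / (8 π)` for fine partitions, in every dimension `d` and for every
number of cells `k`: if `A 0, ..., A (k-1)` are pairwise disjoint measurable subsets of `ℝ^d`
(in particular a measurable partition) and no cell has Gaussian measure strictly between `1/7` and
`11/25`, then every cell satisfies `|z(A i)|^2 ≤ (9 / (8 π)) γ(A i)` and therefore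
`∑ i, |z(A i)|^2 ≤ 9 / (8 π)`. -/
theorem result (d k : ℕ) (A : Fin k → Set (EuclideanSpace ℝ (Fin d)))
    (hA : ∀ i, MeasurableSet (A i))
    (hdisj : Pairwise (Function.onFun Disjoint A))
    (hsize : ∀ i, (stdGaussian (EuclideanSpace ℝ (Fin d))).real (A i) ≤ 1 / 7 ∨
      11 / 25 ≤ (stdGaussian (EuclideanSpace ℝ (Fin d))).real (A i)) :
    (∀ i, ‖∫ x in A i, x ∂(stdGaussian (EuclideanSpace ℝ (Fin d)))‖ ^ 2
        ≤ 9 / (8 * Real.pi) * (stdGaussian (EuclideanSpace ℝ (Fin d))).real (A i)) ∧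
    ∑ i, ‖∫ x in A i, x ∂(stdGaussian (EuclideanSpace ℝ (Fin d)))‖ ^ 2 ≤ 9 / (8 * Real.pi) :=
  ⟨fun i => Vale.Agent.Lib.P226.norm_sq_moment_le_sharp (hA i) (hsize i),
    Vale.Agent.Lib.P226.sum_norm_sq_moment_le_sharp A hA hdisj hsize⟩

end Vale.Agent.Results.P226.SharpSmallCells
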