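import Vale.Agent.Lib.P226.KappaSharp

open MeasureTheory ProbabilityTheory

namespace Vale.Agent.Results.P226.Universal041

/-- For every dimension `d`, every number of cells `k` and every family of pairwise disjoint
measurable subsets `A 0, ..., A (k-1)` of `ℝ^d` (in particular for every measurable partition):
each cell satisfies `|z(A i)|^2 ≤ (41/100) γ(A i)`, and the sum of the squared Euclidean norms of
the unnormalised Gaussian first moments is at most `41/100`. -/
theorem result (d k : ℕ) (A : Fin k → Set (EuclideanSpace ℝ (Fin d)))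
    (hA : ∀ i, MeasurableSet (A i))
    (hdisj : Pairwise (Function.onFun Disjoint A)) :
    (∀ i, ‖∫ x in A i, x ∂(stdGaussian (EuclideanSpace ℝ (Fin d)))‖ ^ 2
        ≤ 41 / 100 * (stdGaussian (EuclideanSpace ℝ (Fin d))).real (A i)) ∧
    ∑ i, ‖∫ x in A i, x ∂(stdGaussian (EuclideanSpace ℝ (Fin d)))‖ ^ 2 ≤ 41 / 100 := by
  constructor
  · intro i
    have h := Vale.Agent.Lib.P226.norm_sq_moment_le (E := EuclideanSpace ℝ (Fin d))
      Vale.Agent.Lib.P226.kappaBound_sharp (by norm_num) (hA i)
    linarith
  · have h := Vale.Agent.Lib.P226.sum_norm_sq_moment_le (E := EuclideanSpace ℝ (Fin d))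
      Vale.Agent.Lib.P226.kappaBound_sharp (by norm_num) A hA hdisj
    linarith

end Vale.Agent.Results.P226.Universal041
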