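import Vale.Agent.Lib.P226.KappaEighth

open MeasureTheory ProbabilityTheory

namespace Vale.Agent.Results.P226.UniversalHalf

/-- For every dimension `d`, every number of cells `k` and every family of pairwise disjoint
measurable subsets `A 0, ..., A (k-1)` of `ℝ^d` (in particular for every measurable partition),
the sum of the squared Euclidean norms of the unnormalised Gaussian first moments is at most
`1/2`. -/
theorem result (d k : ℕ) (A : Fin k → Set (EuclideanSpace ℝ (Fin d)))
    (hA : ∀ i, MeasurableSet (A i))
    (hdisj : Pairwise (Function.onFun Disjoint A)) :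
    ∑ i, ‖∫ x in A i, x ∂(stdGaussian (EuclideanSpace ℝ (Fin d)))‖ ^ 2 ≤ 1 / 2 := by
  have h := Vale.Agent.Lib.P226.sum_norm_sq_moment_le
    (E := EuclideanSpace ℝ (Fin d)) Vale.Agent.Lib.P226.kappaBound_eighth (by norm_num) A hA hdisj
  linarith

end Vale.Agent.Results.P226.UniversalHalf
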